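import Vale.Agent.P339.Final

namespace Vale.Agent.Results.P339.ElevenTwelfths

open Vale.Agent.P325 Vale.Agent.P339

/-- Two-to-one games with perfect completeness are hard for every soundness above `11 / 12`. -/
theorem result : ∀ s : ℝ, 11 / 12 < s →
    ∃ q : ℕ, 2 ≤ q ∧ ∃ f : List Bool → Game q,
      (∃ M : Turing.TM2ComputableInPolyTime id (fun G => bitsOf (natsGame G)) f,
        ∀ j, Finite (M.tm.Γ j)) ∧
      ∀ x : List Bool, f x ≠ [] ∧ TwoToOne (f x) ∧
        ((∃ φ : CNF3, bitsOf (natsCNF φ) = x ∧ Sat φ) → gameVal (f x) = 1) ∧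
        (¬ (∃ φ : CNF3, bitsOf (natsCNF φ) = x ∧ Sat φ) → gameVal (f x) ≤ s) :=
  final

end Vale.Agent.Results.P339.ElevenTwelfths
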